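import Vale.Agent.P281.H949.TL.Thin
import Vale.Agent.P281.H64.SpecG

/-! P281, theorem T-D, block CO (helper150): the complement of finitely many prime divisors in a
connected manifold is connected. -/

open scoped Manifold ContDiff Topology
open Set Filter Vale.Agent.P272.K

noncomputable section

namespace Vale.Agent.P281.H150

open Vale.Agent.P281 Vale.Agent.P281.MF Vale.Agent.P281.ISO

set_option linter.unusedSectionVars false

variable {n p : ℕ} {X Z Y : Type} [TopologicalSpace X] [ChartedSpace (Cm n) X]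
  [IsManifold 𝓘(ℂ, Cm n) ω X] [TopologicalSpace Z] [ChartedSpace (Cm n) Z]
  [IsManifold 𝓘(ℂ, Cm n) ω Z] [TopologicalSpace Y] [ChartedSpace (Cm p) Y]
  [IsManifold 𝓘(ℂ, Cm p) ω Y]

/-- Riemann extension: two disjoint open sets which cover the complement of a hypersurface near `x`
do not both accumulate at `x`. -/
theorem sep_thin {A B : Set X} (hA : IsOpen A) (hB : IsOpen B) (hAB : Disjoint A B) {x : X}
    {Den : X → ℂ} (hDen' : HolV (Cm n) Den x) (hne : ¬ ∀ᶠ z in 𝓝 x, Den z = 0)
    (hcases : ∀ᶠ z in 𝓝 x, Den z ≠ 0 → z ∈ A ∨ z ∈ B) : x ∉ closure A ∨ x ∉ closure B := by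
  classical
  have hdisj : ∀ y, y ∈ B → y ∉ A := fun y hy hy' => disjoint_left.1 hAB hy' hy
  set h : X → ℂ := fun y => if y ∈ A then 1 else 0 with hh
  have hhol : ∀ᶠ z in 𝓝 x, Den z ≠ 0 → HolV (Cm n) h z := by
    filter_upwards [hcases] with z hz hz0
    rcases hz hz0 with h1 | h1
    · refine (contMDiffAt_const (c := (1 : ℂ))).congr_of_eventuallyEq ?_
      filter_upwards [hA.mem_nhds h1] with y hy
      simp only [hh]
      rw [if_pos hy]
    · refine (contMDiffAt_const (c := (0 : ℂ))).congr_of_eventuallyEq ?_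
      filter_upwards [hB.mem_nhds h1] with y hy
      simp only [hh]
      rw [if_neg (hdisj y hy)]
  obtain ⟨Q, hQ, hQe⟩ := extendM_off hDen' hne hhol (Eventually.of_forall fun z hz =>
    subset_closure ⟨hz, 1, Eventually.of_forall fun w _ => by
      simp only [hh]
      split_ifs <;> simp⟩)
  have hfr := ne_frequently hDen' hne
  have hQc : ContinuousAt Q x := hQ.continuousAt
  have hnear : ∀ᶠ y in 𝓝 x, ‖Q y - Q x‖ < 1 / 2 := by
    have h1 : Tendsto (fun y => ‖Q y - Q x‖) (𝓝 x) (𝓝 ‖Q x - Q x‖) :=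
      ((hQc.tendsto.sub tendsto_const_nhds)).norm
    rw [sub_self, norm_zero] at h1
    exact h1.eventually (gt_mem_nhds (by norm_num))
  by_cases hx : ‖Q x - 1‖ < 1 / 2
  · right
    intro hcl
    have h1 := mem_closure_iff_frequently.1 hcl
    obtain ⟨y, hy1, hy2, hy3, hy4⟩ := (h1.and_eventually (hfr.and ((hQe.and hnear).eventually_nhds.and
      hcases.eventually_nhds))).exists
    obtain ⟨z, hz1, hz2, hz3, hz4⟩ := (hy2.and_eventually (hy3.and (hy4.and
      (hB.mem_nhds hy1)))).exists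
    have h2 := hz2.1 hz1
    simp only [hh] at h2
    rw [if_neg (hdisj z hz4)] at h2
    have h3 := hz2.2
    rw [← h2, zero_sub, norm_neg] at h3
    have h4 : ‖(1 : ℂ)‖ ≤ ‖Q x - 1‖ + ‖Q x‖ := by
      have := norm_sub_le (Q x) (Q x - 1)
      rw [sub_sub_cancel] at this
      linarith
    rw [norm_one] at h4
    linarith
  · left
    intro hcl
    have h1 := mem_closure_iff_frequently.1 hcl
    obtain ⟨y, hy1, hy2, hy3, hy4⟩ := (h1.and_eventually (hfr.and ((hQe.and hnear).eventually_nhds.and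
      hcases.eventually_nhds))).exists
    obtain ⟨z, hz1, hz2, hz3, hz4⟩ := (hy2.and_eventually (hy3.and (hy4.and
      (hA.mem_nhds hy1)))).exists
    have h2 := hz2.1 hz1
    simp only [hh] at h2
    rw [if_pos (show z ∈ A from hz4)] at h2
    have h3 := hz2.2
    rw [← h2] at h3
    rw [norm_sub_rev] at h3
    exact hx h3

/-- The union of finitely many prime divisors is closed, with dense complement. -/
theorem dense_closed {𝒢 : Set (Set Y)} (hfin : 𝒢.Finite) (hpr : ∀ G ∈ 𝒢, IsPrimeDivisor (Cm p) G) :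
    Dense (⋃₀ 𝒢)ᶜ ∧ IsClosed (⋃₀ 𝒢) := by
  induction 𝒢, hfin using Set.Finite.induction_on with
  | empty => simp
  | @insert D 𝒟' _ _ ih =>
    obtain ⟨h1, h2⟩ := ih fun D hD => hpr D (mem_insert_of_mem _ hD)
    have h3 := hpr D (mem_insert _ _)
    rw [sUnion_insert, compl_union]
    exact ⟨(dense_compl_prime h3).inter_of_isOpen_left h1 h3.1.isOpen_compl, h3.1.union h2⟩

/-- The complement of finitely many prime divisors in a connected manifold is connected. -/
theorem isPreconnected_compl [PreconnectedSpace Y] {𝒢 : Set (Set Y)} (hfin : 𝒢.Finite)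
    (hpr : ∀ G ∈ 𝒢, IsPrimeDivisor (Cm p) G) : IsPreconnected (⋃₀ 𝒢)ᶜ := by
  classical
  have hS : ∀ y : Y, ∃ g : Y → ℂ, HolV (Cm p) g y ∧ ∀ᶠ y' in 𝓝 y, y' ∈ ⋃₀ 𝒢 ↔ g y' = 0 := by
    intro y
    have hch : ∀ G, ∃ g : Y → ℂ, G ∈ hfin.toFinset → IsLocalEq (Cm p) G g y := by
      intro G
      by_cases hG : G ∈ hfin.toFinset
      · obtain ⟨g, hg⟩ := (hpr G (hfin.mem_toFinset.1 hG)).2.1 y
        exact ⟨g, fun _ => hg⟩
      · exact ⟨0, fun h => absurd h hG⟩
    choose g hg using hch
    refine ⟨fun y => ∏ G ∈ hfin.toFinset, g G y, HolV.prod fun G hG => (hg G hG).holAt, ?_⟩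
    have h1 : ∀ᶠ y' in 𝓝 y, ∀ G ∈ hfin.toFinset, IsLocalEq (Cm p) G (g G) y' := by
      rw [Filter.eventually_all_finset]
      exact fun G hG => (hg G hG).eventually
    filter_upwards [h1] with y' hy'
    rw [Finset.prod_eq_zero_iff, mem_sUnion]
    constructor
    · rintro ⟨G, hG, hyG⟩
      have hG' := hfin.mem_toFinset.2 hG
      exact ⟨G, hG', (hy' G hG').mem_iff.1 hyG⟩
    · rintro ⟨G, hG, hyG⟩
      exact ⟨G, hfin.mem_toFinset.1 hG, (hy' G hG).mem_iff.2 hyG⟩
  obtain ⟨hdense, hcl⟩ := dense_closed hfin hpr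
  have hO : IsOpen (⋃₀ 𝒢)ᶜ := hcl.isOpen_compl
  rw [isPreconnected_iff_subset_of_disjoint]
  intro u v hu hv huv hempty
  set A : Set Y := (⋃₀ 𝒢)ᶜ ∩ u with hAdef
  set B : Set Y := (⋃₀ 𝒢)ᶜ ∩ v with hBdef
  have hA : IsOpen A := hO.inter hu
  have hB : IsOpen B := hO.inter hv
  have hAB : Disjoint A B := by
    rw [disjoint_left]
    rintro y ⟨h1, h2⟩ ⟨_, h3⟩
    have : y ∈ (⋃₀ 𝒢)ᶜ ∩ (u ∩ v) := ⟨h1, h2, h3⟩
    rw [hempty] at this
    exact this
  have hsep : ∀ y, y ∉ closure A ∨ y ∉ closure B := by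
    intro y
    obtain ⟨g, hg, hge⟩ := hS y
    refine sep_thin hA hB hAB hg ?_ ?_
    · intro hcon
      have h1 := mem_closure_iff_frequently.1 (hdense y)
      apply h1
      filter_upwards [hcon, hge] with z hz hz'
      exact fun h => h (hz'.2 hz)
    · filter_upwards [hge] with z hz hz0
      have hzS : z ∈ (⋃₀ 𝒢)ᶜ := fun h => hz0 (hz.1 h)
      rcases huv hzS with h | h
      · exact Or.inl ⟨hzS, h⟩
      · exact Or.inr ⟨hzS, h⟩
  have h1 : closure A ∪ closure B = univ := by
    rw [← closure_union, ← inter_union_distrib_left, inter_eq_left.2 huv]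
    exact hdense.closure_eq
  have h3 : IsClopen (closure A) := by
    refine ⟨isClosed_closure, ?_⟩
    have h4 : closure A = (closure B)ᶜ := by
      ext x
      constructor
      · intro hx hx'
        rcases hsep x with h | h
        · exact h hx
        · exact h hx'
      · intro hx
        have : x ∈ closure A ∪ closure B := by rw [h1]; trivial
        exact this.resolve_right hx
    rw [h4]
    exact isClosed_closure.isOpen_compl
  rcases isClopen_iff.1 h3 with h4 | h4
  · right
    intro y hy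
    rcases huv hy with h | h
    · exfalso
      have : y ∈ closure A := subset_closure ⟨hy, h⟩
      rw [h4] at this
      exact this
    · exact h
  · left
    intro y hy
    rcases huv hy with h | h
    · exact h
    · exfalso
      have h5 : y ∈ closure B := subset_closure ⟨hy, h⟩
      have h6 : y ∈ closure A := by rw [h4]; trivial
      rcases hsep y with h | h
      · exact h h6
      · exact h h5

/-- **CO**: `Y ∖ S` is connected. -/
theorem co : H64.COStmt := by
  intro n p X Z Y _ _ _ _ _ _ _ _ _ j f 𝒢 Δ Δ' hsetup hpf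
  obtain ⟨hX, hZ, hY, hj, hf, hfin, hpr, -⟩ := hsetup
  have hpr' : ∀ G ∈ 𝒢, IsPrimeDivisor (Cm p) G := hpr
  haveI : PreconnectedSpace Z := H949.TL.preconnected_big (n := n) hj
  obtain ⟨hdense, -⟩ := dense_closed hfin hpr'
  have hr : (⋃₀ 𝒢)ᶜ ⊆ range f := by
    intro y hy
    obtain ⟨z, hz⟩ := (hpf.connected y hy).nonempty
    exact ⟨z, hz⟩
  haveI : PreconnectedSpace Y := by
    rw [preconnectedSpace_iff_univ, ← (hdense.mono hr).closure_eq]
    exact (isPreconnected_range hf.continuous).closure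
  exact isPreconnected_compl hfin hpr'

end Vale.Agent.P281.H150
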