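import Mathlib

/-! P281, theorem T-D, block M (helper150): étale closed sets over a proper map, topology. -/

open scoped Topology
open Set Filter

noncomputable section

namespace Vale.Agent.P281.H150

section

variable {Z Y : Type} [TopologicalSpace Z] [TopologicalSpace Y]

/-- The points of the fibre over `y` which lie on one of the sets of `𝓗`. -/
def Fy (f : Z → Y) (𝓗 : Set (Set Z)) (y : Y) : Set Z := {x | f x = y ∧ ∃ D ∈ 𝓗, x ∈ D}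

/-- A family of closed sets which are étale over the complement of `S`. -/
structure Et (f : Z → Y) (S : Set Y) (𝓗 : Set (Set Z)) (P : (Y → Z) → Y → Prop) : Prop where
  cont : Continuous f
  closedS : IsClosed S
  proper : ∀ K : Set Y, IsCompact K → K ⊆ Sᶜ → IsCompact (f ⁻¹' K)
  fin : 𝓗.Finite
  closed : ∀ D ∈ 𝓗, IsClosed D
  disj : ∀ D ∈ 𝓗, ∀ D' ∈ 𝓗, D ≠ D' → ∀ x ∈ D ∩ D', f x ∈ S
  sec : ∀ D ∈ 𝓗, ∀ x ∈ D, f x ∉ S → ∃ s : Y → Z, (∀ᶠ y in 𝓝 (f x), P s y ∧ f (s y) = y) ∧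
    ContinuousAt s (f x) ∧ s (f x) = x ∧ ∀ᶠ z in 𝓝 x, (z ∈ D ↔ z = s (f z))

variable {f : Z → Y} {S : Set Y} {𝓗 : Set (Set Z)} {P : (Y → Z) → Y → Prop}

/-- Near a point of `D` over the complement of `S`. -/
theorem Et.near (h : Et f S 𝓗 P) {D : Set Z} (hD : D ∈ 𝓗) {x : Z} (hx : x ∈ D) (hfx : f x ∉ S) :
    ∃ s : Y → Z, (∀ᶠ y in 𝓝 (f x), P s y ∧ f (s y) = y) ∧ ContinuousAt s (f x) ∧ s (f x) = x ∧
      ∃ N : Set Z, IsOpen N ∧ x ∈ N ∧ ∀ z ∈ N, (z ∈ D ↔ z = s (f z)) ∧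
        ∀ D' ∈ 𝓗, z ∈ D' → D' = D := by
  obtain ⟨s, h1, h2, h3, h4⟩ := h.sec D hD x hx hfx
  refine ⟨s, h1, h2, h3, ?_⟩
  have h5 : ∀ᶠ z in 𝓝 x, ∀ D' ∈ h.fin.toFinset, z ∈ D' → D' = D := by
    rw [Filter.eventually_all_finset]
    intro D' hD'
    rw [h.fin.mem_toFinset] at hD'
    by_cases he : D' = D
    · exact Eventually.of_forall fun z _ => he
    · have hx' : x ∉ D' := fun hx' => hfx (h.disj D' hD' D hD he x ⟨hx', hx⟩)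
      filter_upwards [(h.closed D' hD').isOpen_compl.mem_nhds hx'] with z hz hz'
      exact absurd hz' hz
  obtain ⟨N, hN, hNo, hxN⟩ := eventually_nhds_iff.1 (h4.and h5)
  exact ⟨N, hNo, hxN, fun z hz => ⟨(hN z hz).1, fun D' hD' => (hN z hz).2 D'
    (h.fin.mem_toFinset.2 hD')⟩⟩

theorem Et.closedA (h : Et f S 𝓗 P) : IsClosed (⋃₀ 𝓗) := by
  rw [sUnion_eq_biUnion]
  exact h.fin.isClosed_biUnion h.closed

theorem Et.finite (h : Et f S 𝓗 P) {y : Y} (hy : y ∉ S) : (Fy f 𝓗 y).Finite := by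
  classical
  have hc : IsCompact (Fy f 𝓗 y) := by
    have h1 : Fy f 𝓗 y = f ⁻¹' {y} ∩ ⋃₀ 𝓗 := by
      ext x
      simp [Fy, mem_sUnion]
    rw [h1]
    exact (h.proper {y} isCompact_singleton (singleton_subset_iff.2 hy)).inter_right h.closedA
  have hch : ∀ x, ∃ N : Set Z, x ∈ Fy f 𝓗 y → N ∈ 𝓝 x ∧ ∀ z ∈ N, z ∈ Fy f 𝓗 y → z = x := by
    intro x
    by_cases hx : x ∈ Fy f 𝓗 y
    · obtain ⟨hfx, D, hD, hxD⟩ := hx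
      have hfx' : f x ∉ S := by rw [hfx]; exact hy
      obtain ⟨s, -, -, h3, N, hN, hxN, hN'⟩ := h.near hD hxD hfx'
      refine ⟨N, fun _ => ⟨hN.mem_nhds hxN, fun z hz hz' => ?_⟩⟩
      obtain ⟨hfz, D', hD', hzD'⟩ := hz'
      obtain ⟨h5, h6⟩ := hN' z hz
      have h7 := h6 D' hD' hzD'
      rw [h7] at hzD'
      rw [h5.1 hzD', hfz, ← hfx, h3]
    · exact ⟨∅, fun h => absurd h hx⟩
  choose N hN using hch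
  obtain ⟨t, ht, htc⟩ := hc.elim_nhds_subcover N fun x hx => (hN x hx).1
  refine (t.finite_toSet).subset fun z hz => ?_
  obtain ⟨x, hx, hzx⟩ := mem_iUnion₂.1 (htc hz)
  rw [(hN x (ht x hx)).2 z hzx hz]
  exact hx

/-- **Local triviality.** -/
theorem Et.local [T2Space Z] [T2Space Y] [LocallyCompactSpace Y] (h : Et f S 𝓗 P) {y₀ : Y}
    (hy₀ : y₀ ∉ S) : ∃ (s : Z → Y → Z) (U : Set Y), IsOpen U ∧ y₀ ∈ U ∧ U ⊆ Sᶜ ∧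
      (∀ x ∈ Fy f 𝓗 y₀, ∀ y ∈ U, P (s x) y ∧ f (s x y) = y) ∧
      (∀ x ∈ Fy f 𝓗 y₀, ∀ x' ∈ Fy f 𝓗 y₀, ∀ y ∈ U, s x y = s x' y → x = x') ∧
      (∀ z, f z ∈ U → ∀ D ∈ 𝓗, z ∈ D → ∃ x ∈ Fy f 𝓗 y₀, x ∈ D ∧ z = s x (f z)) ∧
      ∀ x ∈ Fy f 𝓗 y₀, ∀ D ∈ 𝓗, x ∈ D → ∀ y ∈ U, ∀ᶠ z in 𝓝 (s x y), (z ∈ D ↔ z = s x (f z)) := by
  classical
  have hfin := h.finite hy₀
  have hch : ∀ x, ∃ (D : Set Z) (s : Y → Z) (N : Set Z), x ∈ Fy f 𝓗 y₀ → D ∈ 𝓗 ∧ x ∈ D ∧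
      (∀ᶠ y in 𝓝 y₀, P s y ∧ f (s y) = y) ∧ ContinuousAt s y₀ ∧ s y₀ = x ∧ IsOpen N ∧ x ∈ N ∧
      ∀ z ∈ N, (z ∈ D ↔ z = s (f z)) ∧ ∀ D' ∈ 𝓗, z ∈ D' → D' = D := by
    intro x
    by_cases hx : x ∈ Fy f 𝓗 y₀
    · obtain ⟨hfx, D, hD, hxD⟩ := id hx
      have hfx' : f x ∉ S := by rw [hfx]; exact hy₀
      obtain ⟨s, h1, h2, h3, N, hN, hxN, hN'⟩ := h.near hD hxD hfx'
      rw [hfx] at h1 h2 h3
      exact ⟨D, s, N, fun _ => ⟨hD, hxD, h1, h2, h3, hN, hxN, hN'⟩⟩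
    · exact ⟨∅, fun _ => x, ∅, fun h => absurd h hx⟩
  choose Dx s N hN using hch
  obtain ⟨W₀, hW₀, hWd⟩ := hfin.t2_separation
  set W : Z → Set Z := fun x => W₀ x ∩ N x with hW
  have hWo : ∀ x ∈ Fy f 𝓗 y₀, IsOpen (W x) := fun x hx => (hW₀ x).2.inter (hN x hx).2.2.2.2.2.1
  have hWx : ∀ x ∈ Fy f 𝓗 y₀, x ∈ W x := fun x hx => ⟨(hW₀ x).1, (hN x hx).2.2.2.2.2.2.1⟩
  -- the rest of the divisors
  set C : Set Z := ⋃₀ 𝓗 \ ⋃ x ∈ Fy f 𝓗 y₀, W x with hC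
  have hCc : IsClosed C := h.closedA.sdiff (isOpen_biUnion hWo)
  obtain ⟨K, hKc, hK, hKS⟩ : ∃ K : Set Y, IsCompact K ∧ K ∈ 𝓝 y₀ ∧ K ⊆ Sᶜ := by
    obtain ⟨K, hK, hKS, hKc⟩ := local_compact_nhds (h.closedS.isOpen_compl.mem_nhds hy₀)
    exact ⟨K, hKc, hK, hKS⟩
  have hCK : IsCompact (f ⁻¹' K ∩ C) := (h.proper K hKc hKS).inter_right hCc
  have hI : IsClosed (f '' (f ⁻¹' K ∩ C)) := (hCK.image h.cont).isClosed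
  have hyI : y₀ ∉ f '' (f ⁻¹' K ∩ C) := by
    rintro ⟨z, ⟨-, hz1, hz2⟩, hz⟩
    obtain ⟨D, hD, hzD⟩ := mem_sUnion.1 hz1
    have hzF : z ∈ Fy f 𝓗 y₀ := ⟨hz, D, hD, hzD⟩
    exact hz2 (mem_iUnion₂.2 ⟨z, hzF, hWx z hzF⟩)
  have hO : ∀ᶠ y in 𝓝 y₀, ∀ x ∈ hfin.toFinset, (P (s x) y ∧ f (s x y) = y) ∧ s x y ∈ W x := by
    rw [Filter.eventually_all_finset]
    intro x hx
    rw [hfin.mem_toFinset] at hx
    obtain ⟨-, -, h1, h2, h3, -⟩ := hN x hx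
    have h4 : ∀ᶠ y in 𝓝 y₀, s x y ∈ W x :=
      h2.eventually_mem (by rw [h3]; exact (hWo x hx).mem_nhds (hWx x hx))
    exact h1.and h4
  obtain ⟨O, hO1, hO2, hO3⟩ := eventually_nhds_iff.1 hO
  refine ⟨s, interior K ∩ (f '' (f ⁻¹' K ∩ C))ᶜ ∩ O,
    (isOpen_interior.inter hI.isOpen_compl).inter hO2,
    ⟨⟨mem_interior_iff_mem_nhds.2 hK, hyI⟩, hO3⟩, ?_, ?_, ?_, ?_, ?_⟩
  · rintro y ⟨⟨hy, -⟩, -⟩
    exact hKS (interior_subset hy)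
  · rintro x hx y ⟨-, hy⟩
    exact (hO1 y hy x (hfin.mem_toFinset.2 hx)).1
  · rintro x hx x' hx' y ⟨-, hy⟩ he
    by_contra hne
    have h1 := (hO1 y hy x (hfin.mem_toFinset.2 hx)).2.1
    have h2 := (hO1 y hy x' (hfin.mem_toFinset.2 hx')).2.1
    rw [he] at h1
    exact disjoint_left.1 (hWd hx hx' hne) h1 h2
  · rintro z ⟨⟨hz1, hz2⟩, hz3⟩ D hD hzD
    have h1 : z ∈ ⋃ x ∈ Fy f 𝓗 y₀, W x := by
      by_contra hcon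
      exact hz2 ⟨z, ⟨(show f z ∈ K from interior_subset hz1), ⟨D, hD, hzD⟩, hcon⟩, rfl⟩
    obtain ⟨x, hx, hzx⟩ := mem_iUnion₂.1 h1
    obtain ⟨-, h2, -, -, -, -, -, h3⟩ := hN x hx
    obtain ⟨h4, h5⟩ := h3 z hzx.2
    have h6 := h5 D hD hzD
    refine ⟨x, hx, by rw [h6]; exact h2, h4.1 (by rw [← h6]; exact hzD)⟩
  · rintro x hx D hD hxD y ⟨-, hy⟩
    obtain ⟨-, h2, -, -, -, -, hxN, h3⟩ := hN x hx
    have h6 := (h3 x hxN).2 D hD hxD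
    filter_upwards [(hWo x hx).mem_nhds (hO1 y hy x (hfin.mem_toFinset.2 hx)).2] with z hz
    rw [h6]
    exact (h3 z hz.2).1

/-- The fibres over `y` and `y'` have the same number of points on each of the sets of `𝓗`. -/
def Rel (f : Z → Y) (𝓗 : Set (Set Z)) (y y' : Y) : Prop :=
  ∃ e : Fy f 𝓗 y ≃ Fy f 𝓗 y', ∀ x : Fy f 𝓗 y, ∀ D ∈ 𝓗, ((x : Z) ∈ D ↔ (e x : Z) ∈ D)

omit [TopologicalSpace Z] [TopologicalSpace Y] in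
theorem Rel.symm {y y' : Y} (h : Rel f 𝓗 y y') : Rel f 𝓗 y' y := by
  obtain ⟨e, he⟩ := h
  refine ⟨e.symm, fun x D hD => ?_⟩
  rw [he (e.symm x) D hD, e.apply_symm_apply]

omit [TopologicalSpace Z] [TopologicalSpace Y] in
theorem Rel.trans {y y' y'' : Y} (h : Rel f 𝓗 y y') (h' : Rel f 𝓗 y' y'') : Rel f 𝓗 y y'' := by
  obtain ⟨e, he⟩ := h
  obtain ⟨e', he'⟩ := h'
  exact ⟨e.trans e', fun x D hD => (he x D hD).trans (he' _ D hD)⟩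

theorem Et.rel_near [T2Space Z] [T2Space Y] [LocallyCompactSpace Y] (h : Et f S 𝓗 P) {y₀ : Y}
    (hy₀ : y₀ ∉ S) : ∀ᶠ y in 𝓝 y₀, Rel f 𝓗 y₀ y := by
  obtain ⟨s, U, hU, hyU, -, h1, h2, h3, h4⟩ := h.local hy₀
  filter_upwards [hU.mem_nhds hyU] with y hy
  have h5 : ∀ x ∈ Fy f 𝓗 y₀, ∀ D ∈ 𝓗, x ∈ D → s x y ∈ D := by
    intro x hx D hD hxD
    refine ((h4 x hx D hD hxD y hy).self_of_nhds).2 ?_
    rw [(h1 x hx y hy).2]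
  have h6 : ∀ x ∈ Fy f 𝓗 y₀, ∀ D ∈ 𝓗, s x y ∈ D → x ∈ D := by
    intro x hx D hD hxD
    obtain ⟨x', hx', hx'D, he⟩ := h3 (s x y) (by rw [(h1 x hx y hy).2]; exact hy) D hD hxD
    rw [(h1 x hx y hy).2] at he
    rw [h2 x hx x' hx' y hy he]
    exact hx'D
  have h7 : ∀ x ∈ Fy f 𝓗 y₀, s x y ∈ Fy f 𝓗 y := by
    intro x hx
    obtain ⟨-, D, hD, hxD⟩ := id hx
    exact ⟨(h1 x hx y hy).2, D, hD, h5 x hx D hD hxD⟩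
  let g : Fy f 𝓗 y₀ → Fy f 𝓗 y := fun x => ⟨s x y, h7 x x.2⟩
  have hg : Function.Bijective g := by
    refine ⟨fun x x' he => ?_, fun z => ?_⟩
    · exact Subtype.ext (h2 x x.2 x' x'.2 y hy (congrArg Subtype.val he))
    · obtain ⟨z, hz, D, hD, hzD⟩ := z
      obtain ⟨x, hx, hxD, he⟩ := h3 z (by rw [hz]; exact hy) D hD hzD
      refine ⟨⟨x, hx⟩, Subtype.ext ?_⟩
      show s x y = z
      rw [he, hz]
  exact ⟨Equiv.ofBijective g hg, fun x D hD => ⟨h5 x x.2 D hD, h6 x x.2 D hD⟩⟩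

theorem Et.rel [T2Space Z] [T2Space Y] [LocallyCompactSpace Y] (h : Et f S 𝓗 P)
    (hc : IsPreconnected Sᶜ) {y y' : Y} (hy : y ∉ S) (hy' : y' ∉ S) : Rel f 𝓗 y y' := by
  refine hc.induction₂' (Rel f 𝓗) (fun x hx => ?_) (fun x y z _ _ _ h1 h2 => h1.trans h2) hy hy'
  have h1 := h.rel_near (y₀ := x) hx
  exact (h1.mono fun y hy => ⟨hy, hy.symm⟩).filter_mono nhdsWithin_le_nhds

/-- **Block M, topological part.** -/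
theorem Et.main [T2Space Z] [T2Space Y] [LocallyCompactSpace Y] (h : Et f S 𝓗 P)
    (hc : IsPreconnected Sᶜ) (Δ : Set Z → ℝ) : ∃ (d : ℕ) (δ : Fin d → ℝ), ∀ y₀ ∉ S,
      ∃ (U : Set Y) (s : Fin d → Y → Z), IsOpen U ∧ y₀ ∈ U ∧ U ⊆ Sᶜ ∧
      (∀ k, ∀ y ∈ U, P (s k) y ∧ f (s k y) = y) ∧
      (∀ k l, ∀ y ∈ U, s k y = s l y → k = l) ∧
      (∀ x, f x ∈ U → ∀ D ∈ 𝓗, x ∈ D → ∃ k, x = s k (f x)) ∧
      ∀ k, ∀ y ∈ U, ∃ D ∈ 𝓗, Δ D = δ k ∧ ∀ᶠ x in 𝓝 (s k y), (x ∈ D ↔ x = s k (f x)) := by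
  classical
  by_cases hne : ∃ y₁, y₁ ∉ S
  swap
  · push Not at hne
    exact ⟨0, fun _ => 0, fun y₀ hy₀ => absurd (hne y₀) hy₀⟩
  obtain ⟨y₁, hy₁⟩ := hne
  have hfin := h.finite hy₁
  have : Fintype (Fy f 𝓗 y₁) := hfin.fintype
  let e₁ : Fin (Fintype.card (Fy f 𝓗 y₁)) ≃ Fy f 𝓗 y₁ := (Fintype.equivFin _).symm
  have hD : ∀ x : Fy f 𝓗 y₁, ∃ D, D ∈ 𝓗 ∧ (x : Z) ∈ D := fun x => x.2.2
  choose D hD1 hD2 using hD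
  refine ⟨_, fun k => Δ (D (e₁ k)), fun y₀ hy₀ => ?_⟩
  obtain ⟨e, he⟩ := h.rel hc hy₁ hy₀
  obtain ⟨s, U, hU, hyU, hUS, h1, h2, h3, h4⟩ := h.local hy₀
  refine ⟨U, fun k => s (e (e₁ k)), hU, hyU, hUS, fun k y hy => h1 _ (e (e₁ k)).2 y hy,
    fun k l y hy hkl => ?_, fun x hx D' hD' hxD' => ?_, fun k y hy => ?_⟩
  · have := h2 _ (e (e₁ k)).2 _ (e (e₁ l)).2 y hy hkl
    exact e₁.injective (e.injective (Subtype.ext this))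
  · obtain ⟨x', hx', -, hxe⟩ := h3 x hx D' hD' hxD'
    refine ⟨e₁.symm (e.symm ⟨x', hx'⟩), ?_⟩
    simp only [Equiv.apply_symm_apply]
    exact hxe
  · refine ⟨D (e₁ k), hD1 _, rfl, ?_⟩
    exact h4 _ (e (e₁ k)).2 _ (hD1 _) ((he _ _ (hD1 _)).1 (hD2 _)) y hy

end

end Vale.Agent.P281.H150
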