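import Vale.Agent.P281.H150.Sec
import Vale.Agent.P281.H150.Top

/-! P281, theorem T-D, block M (helper150). -/

open scoped Manifold ContDiff Topology
open Set Filter

noncomputable section

namespace Vale.Agent.P281.H150

open Vale.Agent.P281 Vale.Agent.P281.MF Vale.Agent.P281.ISO Vale.Agent.P281.H713 Vale.Agent.P281.H64

theorem m : H64.MStmt := by
  intro p Z Y _ _ _ _ _ _ _ _ f S Δ hf hF hc hfin hcl het
  have : LocallyCompactSpace Y := ChartedSpace.locallyCompactSpace (Cm p) Y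
  have e₀ : Cm (p + 1) ≃L[ℂ] (Cm p × ℂ) :=
    ContinuousLinearEquiv.ofFinrankEq (by simp)
  have h : Et f S (horizontal f S Δ)
      (fun s y => ContMDiffAt 𝓘(ℂ, Cm p) 𝓘(ℂ, Cm (p + 1)) ω s y) :=
    { cont := hf.continuous
      closedS := hF.isClosed
      proper := hF.proper
      fin := hfin.subset fun D hD => hD.1
      closed := fun D hD => hcl D hD.1
      disj := het.2
      sec := by
        intro D hD x hx hfx
        obtain ⟨u, hu, hinj⟩ := het.1 D hD x hx hfx
        obtain ⟨V, hVo, hxV, hVh, hVD, -⟩ := hu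
        have hu0 : u x = 0 := (hVD x hxV).1 hx
        obtain ⟨s, h1, h2, h3, h4⟩ := exists_sec e₀ (f := f) (u := u) (x₀ := x) (hf x) (hVh x hxV)
          hu0 hinj
        have hsc : ContinuousAt s (f x) := ContMDiffAt.continuousAt h1
        have h5 : ∀ᶠ y in 𝓝 (f x), ContMDiffAt 𝓘(ℂ, Cm p) 𝓘(ℂ, Cm (p + 1)) ω s y :=
          (contMDiffAt_iff_contMDiffAt_nhds (by simp)).1 h1
        refine ⟨s, ?_, hsc, h2, ?_⟩
        · filter_upwards [h5, h3] with y hy1 hy2
          exact ⟨hy1, hy2.1⟩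
        · have h6 : ∀ᶠ z in 𝓝 x, f (s (f z)) = f z ∧ u (s (f z)) = 0 :=
            hf.continuous.continuousAt.eventually h3
          have h7 : ∀ᶠ z in 𝓝 x, s (f z) ∈ V := by
            have h8 : ContinuousAt (fun z => s (f z)) x :=
              ContinuousAt.comp (g := s) hsc hf.continuous.continuousAt
            exact h8.eventually_mem (by rw [h2]; exact hVo.mem_nhds hxV)
          filter_upwards [h4, h6, h7, hVo.mem_nhds hxV] with z hz4 hz6 hz7 hzV
          refine ⟨fun hz => (hz4 ((hVD z hzV).1 hz)).symm, fun hz => ?_⟩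
          rw [hVD z hzV, hz]
          exact hz6.2 }
  obtain ⟨d, δ, hd⟩ := h.main hc Δ
  refine ⟨d, δ, fun y₀ hy₀ => ?_⟩
  obtain ⟨U, s, h1, h2, h3, h4, h5, h6, h7⟩ := hd y₀ hy₀
  exact ⟨U, s, h1, h2, h3, h4, h5, h6, h7⟩

end Vale.Agent.P281.H150
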