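import Vale.Agent.P281.ISO.Mono
import Vale.Agent.P281.H64.SpecG

/-! P281, theorem T-D, block M (helper150): local sections of a submersion through the points of an
étale hypersurface. -/

open scoped Manifold ContDiff Topology
open Set Filter Metric Asymptotics

noncomputable section

namespace Vale.Agent.P281.H150

open Vale.Agent.P281 Vale.Agent.P281.MF Vale.Agent.P281.ISO

set_option linter.unusedSectionVars false

section

variable {E E' : Type} [NormedAddCommGroup E] [NormedSpace ℂ E] [FiniteDimensional ℂ E]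
  [NormedAddCommGroup E'] [NormedSpace ℂ E'] [FiniteDimensional ℂ E']
variable {X Y : Type} [TopologicalSpace X] [ChartedSpace E X] [IsManifold 𝓘(ℂ, E) ω X]
  [TopologicalSpace Y] [ChartedSpace E' Y] [IsManifold 𝓘(ℂ, E') ω Y]

/-- The inverse of the local coordinates `(f, u)`: a local section `s` of `f` with `u ∘ s = 0`. -/
theorem exists_sec (e₀ : E ≃L[ℂ] (E' × ℂ)) {f : X → Y} {u : X → ℂ} {x₀ : X}
    (hf : HolM E E' f x₀) (hu : HolV E u x₀) (hu0 : u x₀ = 0)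
    (hinj : ∀ ξ : E, dM E E' f x₀ ξ = 0 → dV E u x₀ ξ = 0 → ξ = 0) :
    ∃ s : Y → X, HolM E' E s (f x₀) ∧ s (f x₀) = x₀ ∧
      (∀ᶠ y in 𝓝 (f x₀), f (s y) = y ∧ u (s y) = 0) ∧ ∀ᶠ x in 𝓝 x₀, u x = 0 → s (f x) = x := by
  have : CompleteSpace E := FiniteDimensional.complete ℂ E
  set φ := chartAt E x₀ with hφ
  set ψY := chartAt E' (f x₀) with hψY
  have hxs : x₀ ∈ φ.source := mem_chart_source E x₀
  have hys : f x₀ ∈ ψY.source := mem_chart_source E' (f x₀)
  have h1 : HolV E (fun z => ψY (f z)) x₀ := HolV.comp (h := (ψY : Y → E')) (HolV.chart hys) hf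
  have hG1 : ContDiffAt ℂ ω ((fun z => ψY (f z)) ∘ φ.symm) (φ x₀) := h1.rep hxs
  have hG2 : ContDiffAt ℂ ω (u ∘ φ.symm) (φ x₀) := hu.rep hxs
  set G : E → E' × ℂ := fun v => (ψY (f (φ.symm v)), u (φ.symm v)) with hG
  have hGc : ContDiffAt ℂ ω G (φ x₀) := hG1.prodMk hG2
  set L₁ := fderiv ℂ ((fun z => ψY (f z)) ∘ φ.symm) (φ x₀) with hL₁
  set L₂ := fderiv ℂ (u ∘ φ.symm) (φ x₀) with hL₂
  have hGd : HasFDerivAt G (L₁.prod L₂) (φ x₀) :=
    (hG1.differentiableAt (by simp)).hasFDerivAt.prodMk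
      (hG2.differentiableAt (by simp)).hasFDerivAt
  have d1 : (dV E' (ψY : Y → E') (f x₀)).comp (dM E E' f x₀) =
      L₁.comp (dV E (φ : X → E) x₀) := by
    have h9 := dV_comp (h := (ψY : Y → E')) (HolV.chart hys) hf
    rw [← h9]
    exact dV_eq_chart hxs h1
  have d2 : dV E u x₀ = L₂.comp (dV E (φ : X → E) x₀) := dV_eq_chart hxs hu
  have hinj' : Function.Injective (L₁.prod L₂) := by
    rw [injective_iff_map_eq_zero]
    intro v hv
    obtain ⟨ξ, rfl⟩ := dV_chart_surj (E := E) hxs v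
    have hv1 : L₁ (dV E (φ : X → E) x₀ ξ) = 0 := (Prod.mk.inj hv).1
    have hv2 : L₂ (dV E (φ : X → E) x₀ ξ) = 0 := (Prod.mk.inj hv).2
    have e1 := congrArg (fun T : E →L[ℂ] E' => T ξ) d1
    have e2 := congrArg (fun T : E →L[ℂ] ℂ => T ξ) d2
    simp only [ContinuousLinearMap.comp_apply] at e1 e2
    rw [hv1] at e1
    rw [hv2] at e2
    obtain ⟨A₁, hA₁⟩ := dV_chart_leftInv (E := E') hys
    have e3 : dM E E' f x₀ ξ = 0 := by
      have := congrArg (fun T : E' →L[ℂ] E' => T (dM E E' f x₀ ξ)) hA₁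
      simp only [ContinuousLinearMap.comp_apply, ContinuousLinearMap.id_apply] at this
      rw [← this, e1, map_zero]
    rw [hinj ξ e3 e2, map_zero]
  have hbij : Function.Bijective ((L₁.prod L₂ : E →L[ℂ] (E' × ℂ)) : E →ₗ[ℂ] (E' × ℂ)) := by
    refine ⟨hinj', ?_⟩
    have h3 : Function.Injective (((L₁.prod L₂ : E →L[ℂ] (E' × ℂ)) : E →ₗ[ℂ] (E' × ℂ)) ∘ₗ
        (e₀.symm.toLinearEquiv : (E' × ℂ) →ₗ[ℂ] E)) := hinj'.comp e₀.symm.injective
    have h4 := LinearMap.surjective_of_injective h3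
    intro w
    obtain ⟨v, hv⟩ := h4 w
    exact ⟨e₀.symm v, hv⟩
  let L : E ≃L[ℂ] (E' × ℂ) := (LinearEquiv.ofBijective _ hbij).toContinuousLinearEquiv
  have hL : (L : E →L[ℂ] (E' × ℂ)) = L₁.prod L₂ := by ext v <;> rfl
  have hGd' : HasFDerivAt G (L : E →L[ℂ] (E' × ℂ)) (φ x₀) := by rw [hL]; exact hGd
  have hn : (ω : WithTop ℕ∞) ≠ 0 := by simp
  set R := hGc.localInverse hGd' hn with hR
  have hRc : ContDiffAt ℂ ω R (G (φ x₀)) := hGc.to_localInverse hGd' hn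
  have hstr : HasStrictFDerivAt G (L : E →L[ℂ] (E' × ℂ)) (φ x₀) :=
    hGc.hasStrictFDerivAt' hGd' hn
  have hRr : ∀ᶠ w in 𝓝 (G (φ x₀)), G (R w) = w := hstr.eventually_right_inverse
  have hRl : ∀ᶠ v in 𝓝 (φ x₀), R (G v) = v := hstr.eventually_left_inverse
  have hR0 : R (G (φ x₀)) = φ x₀ := hGc.localInverse_apply_image hGd' hn
  have hG0 : G (φ x₀) = (ψY (f x₀), 0) := by
    simp only [hG, φ.left_inv hxs, hu0]
  have hj : HolV E' (fun y => (ψY y, (0 : ℂ))) (f x₀) :=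
    (HolV.chart hys).prodMk_space (contMDiffAt_const (c := (0 : ℂ)))
  have hRj : HolV E' (fun y => R (ψY y, 0)) (f x₀) :=
    HolV.comp_contDiff (G := R) (by rw [← hG0]; exact hRc) hj
  have hsymm : ContMDiffAt 𝓘(ℂ, E) 𝓘(ℂ, E) ω φ.symm (R (ψY (f x₀), 0)) := by
    rw [← hG0, hR0]
    exact contMDiffAt_symm_of_mem_maximalAtlas (IsManifold.chart_mem_maximalAtlas x₀)
      (φ.map_source hxs)
  have hψh : HolM E' E (fun y => φ.symm (R (ψY y, 0))) (f x₀) :=
    ContMDiffAt.comp (f x₀) hsymm hRj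
  have hψ0 : φ.symm (R (ψY (f x₀), 0)) = x₀ := by
    rw [← hG0, hR0, φ.left_inv hxs]
  refine ⟨fun y => φ.symm (R (ψY y, 0)), hψh, hψ0, ?_, ?_⟩
  · have hψc : Tendsto (fun y => φ.symm (R (ψY y, 0))) (𝓝 (f x₀)) (𝓝 x₀) := by
      have := hψh.continuousAt.tendsto
      simp only [hψ0] at this
      exact this
    have hjc : Tendsto (fun y => (ψY y, (0 : ℂ))) (𝓝 (f x₀)) (𝓝 (G (φ x₀))) := by
      have := (HolV.continuousAt (E := E') hj).tendsto
      rw [hG0]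
      exact this
    filter_upwards [hjc.eventually hRr,
      hψc.eventually (hf.continuousAt.eventually (ψY.open_source.mem_nhds hys)),
      ψY.open_source.mem_nhds hys] with y h3 h4 h5
    have h7 : ψY (f (φ.symm (R (ψY y, 0)))) = ψY y := (Prod.mk.inj h3).1
    have h8 : u (φ.symm (R (ψY y, 0))) = 0 := (Prod.mk.inj h3).2
    exact ⟨ψY.injOn h4 h5 h7, h8⟩
  · have hφc : Tendsto φ (𝓝 x₀) (𝓝 (φ x₀)) := φ.continuousAt hxs
    filter_upwards [hφc.eventually hRl, φ.open_source.mem_nhds hxs] with x h3 h4 h5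
    have h6 : G (φ x) = (ψY (f x), 0) := by simp only [hG, φ.left_inv h4, h5]
    show φ.symm (R (ψY (f x), 0)) = x
    rw [← h6, h3, φ.left_inv h4]

end

end Vale.Agent.P281.H150
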